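import Mathlib

/-!
# P044: definitions for the closure statement

`Good F` says that Q1 of the problem file holds for the fixed graph `F`: there are constants
`C` and `D` such that every finite `F`-free graph `G` (no subgraph isomorphic to `F`, i.e.
`F.Free G`) of maximum degree `Delta >= D` can be properly coloured with `k` colours for some
natural `k <= C * Delta / log Delta`.

`pendant F v0` is `F` with one new vertex (`none`) joined to the vertex `v0` of `F` only.
-/

namespace Vale.Agent.H9.AKS

/-- Q1 of the problem file holds for the fixed graph `F`. -/
def Good {W : Type} (F : SimpleGraph W) : Prop :=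
  ∃ (C : ℝ) (D : ℕ), ∀ (V : Type) [Fintype V] [DecidableEq V] (G : SimpleGraph V)
    [DecidableRel G.Adj], F.Free G → D ≤ G.maxDegree →
      ∃ k : ℕ, G.Colorable k ∧
        (k : ℝ) ≤ C * (G.maxDegree : ℝ) / Real.log (G.maxDegree : ℝ)

/-- `F` with a new pendant vertex `none` attached at the vertex `v0`. -/
def pendant {W : Type} (F : SimpleGraph W) (v0 : W) : SimpleGraph (Option W) where
  Adj x y :=
    match x, y with
    | some a, some b => F.Adj a b
    | some a, none => a = v0
    | none, some b => b = v0
    | none, none => False
  symm.symm
    | some _, some _ => F.adj_symm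
    | some _, none => id
    | none, some _ => id
    | none, none => id
  loopless.irrefl
    | some a => F.loopless.irrefl a
    | none => id

theorem pendant_adj_some_some {W : Type} (F : SimpleGraph W) (v0 a b : W) :
    (pendant F v0).Adj (some a) (some b) ↔ F.Adj a b := Iff.rfl

theorem pendant_adj_some_none {W : Type} (F : SimpleGraph W) (v0 a : W) :
    (pendant F v0).Adj (some a) none ↔ a = v0 := Iff.rfl

theorem pendant_adj_none_some {W : Type} (F : SimpleGraph W) (v0 b : W) :
    (pendant F v0).Adj none (some b) ↔ b = v0 := Iff.rfl

theorem pendant_adj_none_none {W : Type} (F : SimpleGraph W) (v0 : W) :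
    ¬ (pendant F v0).Adj none none := id

end Vale.Agent.H9.AKS
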