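import Mathlib

/-!
# P044, row R0: greedy extension of a colouring

If every vertex of a finite set `L` has fewer than `k` neighbours in `G` and the graph induced
on the complement of `L` is `k`-colourable, then `G` is `k`-colourable: colour the vertices of
`L` one at a time; when a vertex is coloured, its already coloured neighbours use fewer than
`k` colours, so a free colour exists.  With `L = univ` this gives `chi <= Delta + 1`.

Suggested route: a colouring of the induced graph gives `c : V -> Fin k` (any value on `L`;
if `k = 0` then `L` is empty because `degree v < 0` is impossible) that is proper on the set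
`T = complement of L`, in the sense `forall u v in T, G.Adj u v -> c u != c v`; then induct on
`L` (`Finset.induction_on`) with the statement (for every `T` and `c` proper on `T` with
`T union L = univ` there is a proper colouring of `G`), recolouring one vertex of `L` at a time
(`Function.update`); the free colour exists because the image of the neighbour set under `c`
has fewer than `k = card (Fin k)` elements.
Helper lemmas in this file: names starting with `gr_`.
-/

namespace Vale.Agent.H9.AKS

/-- the induction behind the greedy extension: recolour the vertices of `L` one at a time -/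
theorem gr_main {V : Type} [Fintype V] [DecidableEq V] (G : SimpleGraph V)
    [DecidableRel G.Adj] (k : ℕ) (L : Finset V) :
    (∀ v ∈ L, G.degree v < k) → ∀ c : V → Fin k,
      (∀ u v, u ∉ L → v ∉ L → G.Adj u v → c u ≠ c v) →
      ∃ c' : V → Fin k, ∀ u v, G.Adj u v → c' u ≠ c' v := by
  induction L using Finset.induction_on with
  | empty =>
    intro _ c hc
    exact ⟨c, fun u v h => hc u v (Finset.notMem_empty u) (Finset.notMem_empty v) h⟩
  | insert a L ha ih =>
    intro hdeg c hc
    have hka : G.degree a < k := hdeg a (Finset.mem_insert_self a L)
    have hfree : ∃ x : Fin k, x ∉ (G.neighborFinset a).image c := by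
      by_contra hno
      push Not at hno
      have huniv : (G.neighborFinset a).image c = Finset.univ :=
        Finset.eq_univ_iff_forall.mpr hno
      have h1 : ((G.neighborFinset a).image c).card ≤ (G.neighborFinset a).card :=
        Finset.card_image_le
      rw [huniv, Finset.card_univ, Fintype.card_fin, G.card_neighborFinset_eq_degree] at h1
      omega
    obtain ⟨x, hx⟩ := hfree
    refine ih (fun v hv => hdeg v (Finset.mem_insert_of_mem hv)) (Function.update c a x) ?_
    intro u v hu hv huv
    by_cases hua : u = a
    · subst hua
      have hva : v ≠ u := huv.ne.symm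
      rw [Function.update_self, Function.update_of_ne hva]
      intro heq
      apply hx
      rw [Finset.mem_image]
      exact ⟨v, (G.mem_neighborFinset u v).mpr huv, heq.symm⟩
    · by_cases hva : v = a
      · subst hva
        rw [Function.update_of_ne hua, Function.update_self]
        intro heq
        apply hx
        rw [Finset.mem_image]
        exact ⟨u, (G.mem_neighborFinset v u).mpr huv.symm, heq⟩
      · rw [Function.update_of_ne hua, Function.update_of_ne hva]
        refine hc u v ?_ ?_ huv
        · intro h
          rcases Finset.mem_insert.mp h with h | h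
          · exact hua h
          · exact hu h
        · intro h
          rcases Finset.mem_insert.mp h with h | h
          · exact hva h
          · exact hv h

/-- ROW R0 (a). -/
theorem greedy_extend {V : Type} [Fintype V] [DecidableEq V] (G : SimpleGraph V)
    [DecidableRel G.Adj] (k : ℕ) (L : Finset V) (hL : ∀ v ∈ L, G.degree v < k)
    (hc : (G.induce {v | v ∉ L}).Colorable k) : G.Colorable k := by
  obtain ⟨C⟩ := hc
  let c : V → Fin k := fun v =>
    if h : v ∈ L then ⟨0, lt_of_le_of_lt (Nat.zero_le _) (hL v h)⟩ else C ⟨v, h⟩
  have hcp : ∀ u v, u ∉ L → v ∉ L → G.Adj u v → c u ≠ c v := by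
    intro u v hu hv huv
    have e1 : c u = C ⟨u, hu⟩ := dif_neg hu
    have e2 : c v = C ⟨v, hv⟩ := dif_neg hv
    rw [e1, e2]
    exact C.valid (show (G.induce {v | v ∉ L}).Adj ⟨u, hu⟩ ⟨v, hv⟩ from huv)
  obtain ⟨c', hc'⟩ := gr_main G k L hL c hcp
  exact ⟨SimpleGraph.Coloring.mk c' (fun {u v} h => hc' u v h)⟩

/-- ROW R0 (b). -/
theorem greedy_bound {V : Type} [Fintype V] [DecidableEq V] (G : SimpleGraph V)
    [DecidableRel G.Adj] : G.Colorable (G.maxDegree + 1) := by
  have hE : (G.induce {v | v ∉ (Finset.univ : Finset V)}).Colorable (G.maxDegree + 1) := by
    refine ⟨SimpleGraph.Coloring.mk (fun v => ?_) ?_⟩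
    · have h : v.1 ∉ (Finset.univ : Finset V) := v.2
      exact (h (Finset.mem_univ v.1)).elim
    · intro v
      have h : v.1 ∉ (Finset.univ : Finset V) := v.2
      exact (h (Finset.mem_univ v.1)).elim
  exact greedy_extend G (G.maxDegree + 1) Finset.univ
    (fun v _ => Nat.lt_succ_of_le (G.degree_le_maxDegree v)) hE

end Vale.Agent.H9.AKS
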