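import Mathlib

/-!
# P044, row R2: two facts about induced subgraphs

(a) The maximum degree of an induced subgraph is at most the maximum degree of the graph
(`SimpleGraph.maxDegree_le_of_forall_degree_le`; the neighbour finset of `x` in the induced
graph maps injectively, by `Subtype.val`, into the neighbour finset of `x.1` in `G`).
The instances on the subtype are arbitrary (any `Fintype`, any `DecidableRel`).

(b) If the graph induced on the complement of a finite set `S` is `k`-colourable then `G` is
`(k + card S)`-colourable: colour `S` with `card S` new colours, injectively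
(colour type `Fin k ⊕ S`, of cardinality `k + card S`).
Helper lemmas in this file: names starting with `ind_`.
-/

namespace Vale.Agent.H9.AKS

/-- ROW R2 (a). -/
theorem induce_maxDegree_le {V : Type} [Fintype V] (G : SimpleGraph V) [DecidableRel G.Adj]
    (s : Set V) [Fintype s] [DecidableRel (G.induce s).Adj] :
    (G.induce s).maxDegree ≤ G.maxDegree := by
  classical
  apply SimpleGraph.maxDegree_le_of_forall_degree_le
  intro x
  refine le_trans ?_ (G.degree_le_maxDegree x.1)
  rw [← SimpleGraph.card_neighborFinset_eq_degree, ← SimpleGraph.card_neighborFinset_eq_degree]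
  refine Finset.card_le_card_of_injOn (fun y => y.1) ?_ ?_
  · intro y hy
    simp only [Finset.mem_coe, SimpleGraph.mem_neighborFinset] at hy ⊢
    exact hy
  · intro y _ z _ h
    exact Subtype.ext h

/-- ROW R2 (b). -/
theorem colorable_add_of_induce {V : Type} [DecidableEq V] (G : SimpleGraph V) (S : Finset V)
    (k : ℕ) (hc : (G.induce {v | v ∉ S}).Colorable k) : G.Colorable (k + S.card) := by
  classical
  obtain ⟨c⟩ := hc
  obtain ⟨f, hfdef⟩ : ∃ f : V → Fin k ⊕ S, ∀ v, f v =
      if h : v ∈ S then Sum.inr ⟨v, h⟩ else Sum.inl (c ⟨v, h⟩) := ⟨fun v => _, fun _ => rfl⟩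
  have hf : ∀ v w, G.Adj v w → f v ≠ f w := by
    intro v w hvw
    rw [hfdef v, hfdef w]
    by_cases hv : v ∈ S <;> by_cases hw : w ∈ S
    · rw [dif_pos hv, dif_pos hw]
      intro h
      have h2 := Sum.inr.inj h
      exact G.ne_of_adj hvw (congrArg Subtype.val h2)
    · rw [dif_pos hv, dif_neg hw]
      exact Sum.inr_ne_inl
    · rw [dif_neg hv, dif_pos hw]
      exact Sum.inl_ne_inr
    · rw [dif_neg hv, dif_neg hw]
      intro h
      have h2 := Sum.inl.inj h
      exact c.valid (show (G.induce {v | v ∉ S}).Adj ⟨v, hv⟩ ⟨w, hw⟩ from hvw) h2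
  have hcol := (SimpleGraph.Coloring.mk f (fun {v w} h => hf v w h)).colorable
  have hcard : Fintype.card (Fin k ⊕ S) = k + S.card := by
    rw [Fintype.card_sum, Fintype.card_fin, Fintype.card_coe]
  rw [hcard] at hcol
  exact hcol

end Vale.Agent.H9.AKS
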