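import Mathlib
import Vale.Agent.H9.AKS.Defs

/-!
# P044, row R4: deleting the low-degree vertices of a `pendant F v0`-free graph leaves an
`F`-free graph

Let `G` be `pendant F v0`-free and let `L` be a set of vertices containing every vertex of
degree less than `card W` (the number of vertices of `F`).  Then the graph induced on the
complement of `L` is `F`-free.

Proof.  Let `phi` be a copy of `F` in the induced graph and `u = (phi v0).1`; `u` is not in
`L`, so `card W <= degree u`.  The finset `image (fun w => (phi w).1) (univ.erase v0)` has at
most `card W - 1` elements, so some neighbour `x` of `u` in `G` is outside it; `x != u`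
because `G` is loopless, so `x` is outside the whole range of `phi`.  Then
`fun o => Option.elim o x (fun w => (phi w).1)` is an injective homomorphism from
`pendant F v0` to `G` (use `pendant_adj_some_some`, `pendant_adj_some_none`,
`pendant_adj_none_some`, `pendant_adj_none_none`): a contradiction.
Helper lemmas in this file: names starting with `pc_`.
-/

namespace Vale.Agent.H9.AKS

open SimpleGraph

/-- ROW R4. -/
theorem pendant_free_induce {W V : Type} [Fintype W] [Fintype V] [DecidableEq V]
    (F : SimpleGraph W) (v0 : W) (G : SimpleGraph V) [DecidableRel G.Adj] (L : Finset V)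
    (hL : ∀ v, v ∉ L → Fintype.card W ≤ G.degree v) (h : (pendant F v0).Free G) :
    F.Free (G.induce {v | v ∉ L}) := by
  classical
  rintro ⟨φ⟩
  apply h
  have huL : (φ v0).1 ∉ L := (φ v0).2
  have hdeg := hL _ huL
  have hT : ((Finset.univ.erase v0).image (fun w => (φ w).1)).card < Fintype.card W := by
    have hpos : 0 < Fintype.card W := Fintype.card_pos_iff.mpr ⟨v0⟩
    calc ((Finset.univ.erase v0).image (fun w => (φ w).1)).card
        ≤ (Finset.univ.erase v0).card := Finset.card_image_le
      _ = Fintype.card W - 1 := by
          rw [Finset.card_erase_of_mem (Finset.mem_univ _), Finset.card_univ]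
      _ < Fintype.card W := Nat.sub_lt hpos (by norm_num)
  have hex : ∃ x ∈ G.neighborFinset (φ v0).1,
      x ∉ (Finset.univ.erase v0).image (fun w => (φ w).1) := by
    by_contra hcon
    push Not at hcon
    have hsub : G.neighborFinset (φ v0).1 ⊆
        (Finset.univ.erase v0).image (fun w => (φ w).1) := hcon
    have hc := Finset.card_le_card hsub
    rw [G.card_neighborFinset_eq_degree] at hc
    omega
  obtain ⟨x, hx, hxT⟩ := hex
  have hadj : G.Adj (φ v0).1 x := (G.mem_neighborFinset _ x).mp hx
  have hxu : x ≠ (φ v0).1 := fun e => G.loopless.irrefl x (by rw [e] at hadj ⊢; exact hadj)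
  have hxrange : ∀ w, (φ w).1 ≠ x := by
    intro w hw
    by_cases hwv : w = v0
    · subst hwv
      exact hxu hw.symm
    · exact hxT (Finset.mem_image.mpr ⟨w, Finset.mem_erase.mpr ⟨hwv, Finset.mem_univ _⟩, hw⟩)
  have hhom : ∀ a b : Option W, (pendant F v0).Adj a b →
      G.Adj (Option.elim a x (fun w => (φ w).1)) (Option.elim b x (fun w => (φ w).1)) := by
    intro a b hab
    match a, b, hab with
    | some a, some b, hab =>
      have h1 := φ.toHom.map_adj ((pendant_adj_some_some F v0 a b).mp hab)
      exact h1
    | some a, none, hab =>
      have e : a = v0 := (pendant_adj_some_none F v0 a).mp hab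
      subst e
      exact hadj
    | none, some b, hab =>
      have e : b = v0 := (pendant_adj_none_some F v0 b).mp hab
      subst e
      exact hadj.symm
    | none, none, hab => exact absurd hab (pendant_adj_none_none F v0)
  have hinj : Function.Injective (fun o : Option W => Option.elim o x (fun w => (φ w).1)) := by
    intro a b hab
    match a, b, hab with
    | some a, some b, hab =>
      have h1 : φ a = φ b := Subtype.ext hab
      exact congrArg some (φ.injective h1)
    | some a, none, hab => exact absurd hab (hxrange a)
    | none, some b, hab => exact absurd hab.symm (hxrange b)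
    | none, none, _ => rfl
  exact ⟨⟨⟨fun o => Option.elim o x (fun w => (φ w).1), fun {a b} hab => hhom a b hab⟩, hinj⟩⟩

end Vale.Agent.H9.AKS
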