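import Mathlib

/-!
# P044, row R1: the function `x / log x` on `[3, infinity)`

It is nondecreasing there and at least `1`.
Suggested route: `Real.log_le_sub_one_of_pos`, or `Real.log_div_self_antitoneOn`
(`log x / x` is antitone on `{x | exp 1 <= x}`) together with `Real.exp_one_lt_d9` (`e < 3`)
and positivity of `log` above `1`; then `a / log a <= b / log b` iff `log b / b <= log a / a`.
For the second statement `log a <= a - 1 <= a`.
Helper lemmas in this file: names starting with `rl_`.
-/

namespace Vale.Agent.H9.AKS

/-- ROW R1 (a). -/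
theorem xlog_mono {a b : ℝ} (ha : 3 ≤ a) (hab : a ≤ b) :
    a / Real.log a ≤ b / Real.log b := by
  have he : Real.exp 1 < 3 := lt_trans Real.exp_one_lt_d9 (by norm_num)
  have hae : Real.exp 1 ≤ a := le_trans he.le ha
  have hbe : Real.exp 1 ≤ b := le_trans hae hab
  have ha0 : 0 < a := by linarith
  have hb0 : 0 < b := by linarith
  have hla : 0 < Real.log a := Real.log_pos (by linarith)
  have hlb : 0 < Real.log b := Real.log_pos (by linarith)
  have hanti : Real.log b / b ≤ Real.log a / a :=
    Real.log_div_self_antitoneOn (by simpa using hae) (by simpa using hbe) hab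
  rw [div_le_div_iff₀ hb0 ha0] at hanti
  rw [div_le_div_iff₀ hla hlb]
  linarith

/-- ROW R1 (b). -/
theorem xlog_ge_one {a : ℝ} (ha : 3 ≤ a) : 1 ≤ a / Real.log a := by
  have ha0 : 0 < a := by linarith
  have hla : 0 < Real.log a := Real.log_pos (by linarith)
  have hle : Real.log a ≤ a - 1 := Real.log_le_sub_one_of_pos ha0
  rw [le_div_iff₀ hla]
  linarith

end Vale.Agent.H9.AKS
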