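import Mathlib

/-!
# P044, row R3: removing a copy of `F1` from an (F1 + F2)-free graph leaves an `F2`-free graph

Let `G` be (F1 ⊕g F2)-free, let `f` be a copy of `F1` in `G` and let `S` be a finite set of
vertices containing the range of `f`.  Then the graph induced on the complement of `S` is
`F2`-free.

Proof.  If `g` is a copy of `F2` in the induced graph, then `Sum.elim f (fun w => (g w).1)`
is an injective homomorphism from `F1 ⊕g F2` to `G`: adjacency in the sum only occurs inside
one summand (`SimpleGraph.sum_adj_inl`, `sum_adj_inr`, the mixed cases are `False`), `f` and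
`g` are injective homomorphisms, and the two ranges are disjoint because (g w).1 is not in
`S`, while every `f w` is in `S`.
Helper lemmas in this file: names starting with `sc_`.
-/

namespace Vale.Agent.H9.AKS

open SimpleGraph

/-- ROW R3. -/
theorem sum_free_induce {W₁ W₂ V : Type} (F₁ : SimpleGraph W₁) (F₂ : SimpleGraph W₂)
    (G : SimpleGraph V) (h : (F₁ ⊕g F₂).Free G) (f : Copy F₁ G) (S : Finset V)
    (hS : ∀ w, f w ∈ S) : F₂.Free (G.induce {v | v ∉ S}) := by
  rintro ⟨g⟩
  apply h
  have hadj : ∀ a b, (F₁ ⊕g F₂).Adj a b →
      G.Adj (Sum.elim (fun w => f w) (fun w => (g w).1) a)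
        (Sum.elim (fun w => f w) (fun w => (g w).1) b) := by
    intro a b hab
    rcases a with a | a <;> rcases b with b | b
    · exact f.toHom.map_adj (sum_adj_inl.1 hab)
    · simp at hab
    · simp at hab
    · exact g.toHom.map_adj (sum_adj_inr.1 hab)
  have hinj : Function.Injective (Sum.elim (fun w => f w) (fun w => (g w).1)) := by
    intro a b hab
    rcases a with a | a <;> rcases b with b | b
    · simp only [Sum.elim_inl] at hab
      rw [f.injective hab]
    · simp only [Sum.elim_inl, Sum.elim_inr] at hab
      exact absurd (hab ▸ hS a) (g b).2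
    · simp only [Sum.elim_inl, Sum.elim_inr] at hab
      exact absurd (hab.symm ▸ hS b) (g a).2
    · simp only [Sum.elim_inr] at hab
      rw [g.injective (Subtype.ext hab)]
  exact ⟨⟨⟨_, fun {a b} hab => hadj a b hab⟩, hinj⟩⟩

end Vale.Agent.H9.AKS
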