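import Mathlib
import Vale.Agent.H9.AKS.Defs
import Vale.Agent.H9.AKS.Greedy
import Vale.Agent.H9.AKS.RealLog
import Vale.Agent.H9.AKS.Induce
import Vale.Agent.H9.AKS.SumCopy
import Vale.Agent.H9.AKS.PendantCopy

/-!
# P044: assembly of the closure statement

`Good` is closed under passing to a contained graph, under disjoint sums and under attaching a
pendant vertex.  The three parts are `good_of_contained`, `good_sum`, `good_pendant`.
-/

namespace Vale.Agent.H9.AKS

open SimpleGraph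

/-- A constant `C` in `Good` may be replaced by `max C 0`. -/
theorem nonneg_const {W : Type} (F : SimpleGraph W) (C : ℝ) (D : ℕ)
    (h : ∀ (V : Type) [Fintype V] [DecidableEq V] (G : SimpleGraph V) [DecidableRel G.Adj],
      F.Free G → D ≤ G.maxDegree → ∃ k : ℕ, G.Colorable k ∧
        (k : ℝ) ≤ C * (G.maxDegree : ℝ) / Real.log (G.maxDegree : ℝ)) :
    ∀ (V : Type) [Fintype V] [DecidableEq V] (G : SimpleGraph V) [DecidableRel G.Adj],
      F.Free G → D ≤ G.maxDegree → ∃ k : ℕ, G.Colorable k ∧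
        (k : ℝ) ≤ max C 0 * (G.maxDegree : ℝ) / Real.log (G.maxDegree : ℝ) := by
  intro V _ _ G _ hf hD
  obtain ⟨k, hk, hkb⟩ := h V G hf hD
  refine ⟨k, hk, le_trans hkb ?_⟩
  have hx : (0 : ℝ) ≤ (G.maxDegree : ℝ) / Real.log (G.maxDegree : ℝ) :=
    div_nonneg (Nat.cast_nonneg _) (Real.log_natCast_nonneg _)
  rw [mul_div_assoc, mul_div_assoc]
  exact mul_le_mul_of_nonneg_right (le_max_left _ _) hx

/-- The two-case bound for an induced subgraph that is `F`-free. -/
theorem induced_bound {W : Type} (F : SimpleGraph W) (C : ℝ) (D : ℕ) (hC : 0 ≤ C)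
    (hCD : ∀ (V : Type) [Fintype V] [DecidableEq V] (G : SimpleGraph V) [DecidableRel G.Adj],
      F.Free G → D ≤ G.maxDegree → ∃ k : ℕ, G.Colorable k ∧
        (k : ℝ) ≤ C * (G.maxDegree : ℝ) / Real.log (G.maxDegree : ℝ))
    {V : Type} [Fintype V] [DecidableEq V] (G : SimpleGraph V) [DecidableRel G.Adj] (s : Set V)
    (hfree : F.Free (G.induce s)) (hΔ : 3 ≤ G.maxDegree) :
    ∃ k : ℕ, (G.induce s).Colorable k ∧
      (k : ℝ) ≤ (C + ((max D 3 : ℕ) : ℝ)) *
        ((G.maxDegree : ℝ) / Real.log (G.maxDegree : ℝ)) := by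
  letI : Fintype s := Fintype.ofFinite s
  letI : DecidableRel (G.induce s).Adj := Classical.decRel _
  have hmax : (G.induce s).maxDegree ≤ G.maxDegree := induce_maxDegree_le G s
  have hΔ' : (3 : ℝ) ≤ (G.maxDegree : ℝ) := by exact_mod_cast hΔ
  have hx1 := xlog_ge_one hΔ'
  have hD0 : (0 : ℝ) ≤ ((max D 3 : ℕ) : ℝ) := Nat.cast_nonneg _
  rcases Nat.lt_or_ge (G.induce s).maxDegree (max D 3) with hsmall | hbig
  · refine ⟨(G.induce s).maxDegree + 1, greedy_bound (G.induce s), ?_⟩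
    have h1 : (((G.induce s).maxDegree + 1 : ℕ) : ℝ) ≤ ((max D 3 : ℕ) : ℝ) := by
      exact_mod_cast hsmall
    nlinarith
  · obtain ⟨k, hk, hkb⟩ := hCD s (G.induce s) hfree (le_trans (le_max_left _ _) hbig)
    refine ⟨k, hk, ?_⟩
    have h3 : (3 : ℝ) ≤ ((G.induce s).maxDegree : ℝ) := by
      exact_mod_cast le_trans (le_max_right _ _) hbig
    have hle : ((G.induce s).maxDegree : ℝ) ≤ (G.maxDegree : ℝ) := by exact_mod_cast hmax
    have hmono := xlog_mono h3 hle
    rw [mul_div_assoc] at hkb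
    have h4 := mul_le_mul_of_nonneg_left hmono hC
    nlinarith

/-- Part (1): a graph contained in a good graph is good. -/
theorem good_of_contained {W W' : Type} (F : SimpleGraph W) (F' : SimpleGraph W')
    (hc : F' ⊑ F) (h : Good F) : Good F' := by
  obtain ⟨C, D, hCD⟩ := h
  refine ⟨C, D, ?_⟩
  intro V _ _ G _ hfree hD
  exact hCD V G (fun hFG => hfree (hc.trans hFG)) hD

/-- Part (2): the disjoint sum of two good graphs is good. -/
theorem good_sum {W₁ W₂ : Type} [Finite W₁] (F₁ : SimpleGraph W₁) (F₂ : SimpleGraph W₂)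
    (h₁ : Good F₁) (h₂ : Good F₂) : Good (F₁ ⊕g F₂) := by
  letI : Fintype W₁ := Fintype.ofFinite W₁
  obtain ⟨C₁, D₁, h₁⟩ := h₁
  obtain ⟨C₂, D₂, h₂⟩ := h₂
  have h₂' := nonneg_const F₂ C₂ D₂ h₂
  refine ⟨max C₁ (max C₂ 0 + ((max D₂ 3 : ℕ) : ℝ) + (Fintype.card W₁ : ℝ)), max D₁ 3, ?_⟩
  intro V _ _ G _ hfree hD
  have hΔ : 3 ≤ G.maxDegree := le_trans (le_max_right _ _) hD
  have hΔ' : (3 : ℝ) ≤ (G.maxDegree : ℝ) := by exact_mod_cast hΔ
  have hx1 := xlog_ge_one hΔ'
  rcases Classical.em (F₁ ⊑ G) with hF₁ | hF₁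
  · obtain ⟨f⟩ := hF₁
    obtain ⟨S, hSdef⟩ : ∃ S : Finset V, S = Finset.univ.image (fun w => f w) := ⟨_, rfl⟩
    have hS : ∀ w, f w ∈ S := by
      intro w
      rw [hSdef]
      exact Finset.mem_image_of_mem _ (Finset.mem_univ w)
    have hScard : S.card ≤ Fintype.card W₁ := by
      rw [hSdef]
      exact le_trans Finset.card_image_le (le_of_eq Finset.card_univ)
    have hfree' := sum_free_induce F₁ F₂ G hfree f S hS
    obtain ⟨k, hk, hkb⟩ :=
      induced_bound F₂ (max C₂ 0) D₂ (le_max_right _ _) h₂' G {v | v ∉ S} hfree' hΔ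
    refine ⟨k + S.card, colorable_add_of_induce G S k hk, ?_⟩
    have hs : (S.card : ℝ) ≤ (Fintype.card W₁ : ℝ) := by exact_mod_cast hScard
    have hW : (0 : ℝ) ≤ (Fintype.card W₁ : ℝ) := Nat.cast_nonneg _
    have h5 : ((k + S.card : ℕ) : ℝ) ≤
        (max C₂ 0 + ((max D₂ 3 : ℕ) : ℝ) + (Fintype.card W₁ : ℝ)) *
          ((G.maxDegree : ℝ) / Real.log (G.maxDegree : ℝ)) := by
      rw [Nat.cast_add]
      nlinarith
    rw [mul_div_assoc]
    exact le_trans h5 (mul_le_mul_of_nonneg_right (le_max_right _ _) (by linarith))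
  · obtain ⟨k, hk, hkb⟩ := h₁ V G hF₁ (le_trans (le_max_left _ _) hD)
    refine ⟨k, hk, le_trans hkb ?_⟩
    rw [mul_div_assoc, mul_div_assoc]
    exact mul_le_mul_of_nonneg_right (le_max_left _ _) (by linarith)

/-- Part (3): a good graph with a pendant vertex attached is good. -/
theorem good_pendant {W : Type} [Finite W] (F : SimpleGraph W) (v0 : W) (h : Good F) :
    Good (pendant F v0) := by
  letI : Fintype W := Fintype.ofFinite W
  obtain ⟨C, D, h⟩ := h
  have h' := nonneg_const F C D h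
  refine ⟨max C 0 + ((max D 3 : ℕ) : ℝ) + (Fintype.card W : ℝ), 3, ?_⟩
  intro V _ _ G _ hfree hD
  have hΔ' : (3 : ℝ) ≤ (G.maxDegree : ℝ) := by exact_mod_cast hD
  have hx1 := xlog_ge_one hΔ'
  obtain ⟨L, hLdef⟩ : ∃ L : Finset V,
      L = Finset.univ.filter (fun v => G.degree v < Fintype.card W) := ⟨_, rfl⟩
  have hL1 : ∀ v, v ∉ L → Fintype.card W ≤ G.degree v := by
    intro v hv
    by_contra hlt
    apply hv
    rw [hLdef]
    exact Finset.mem_filter.mpr ⟨Finset.mem_univ v, not_le.mp hlt⟩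
  have hfree' := pendant_free_induce F v0 G L hL1 hfree
  obtain ⟨k, hk, hkb⟩ :=
    induced_bound F (max C 0) D (le_max_right _ _) h' G {v | v ∉ L} hfree' hD
  have hk' : (G.induce {v | v ∉ L}).Colorable (max k (Fintype.card W)) :=
    hk.mono (le_max_left _ _)
  have hL2 : ∀ v ∈ L, G.degree v < max k (Fintype.card W) := by
    intro v hv
    rw [hLdef] at hv
    exact lt_of_lt_of_le (Finset.mem_filter.mp hv).2 (le_max_right _ _)
  refine ⟨max k (Fintype.card W), greedy_extend G _ L hL2 hk', ?_⟩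
  have h6 : ((max k (Fintype.card W) : ℕ) : ℝ) ≤ (k : ℝ) + (Fintype.card W : ℝ) := by
    have h7 : max k (Fintype.card W) ≤ k + Fintype.card W := by omega
    exact_mod_cast h7
  have hW : (0 : ℝ) ≤ (Fintype.card W : ℝ) := Nat.cast_nonneg _
  rw [mul_div_assoc]
  nlinarith

/-- The closure statement. -/
theorem closure_statement :
    (∀ (W W' : Type) (F : SimpleGraph W) (F' : SimpleGraph W'),
        F' ⊑ F → Good F → Good F') ∧
    (∀ (W₁ W₂ : Type) [Finite W₁] [Finite W₂] (F₁ : SimpleGraph W₁) (F₂ : SimpleGraph W₂),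
        Good F₁ → Good F₂ → Good (F₁ ⊕g F₂)) ∧
    (∀ (W : Type) [Finite W] (F : SimpleGraph W) (v0 : W),
        Good F → Good (pendant F v0)) :=
  ⟨fun _ _ F F' hc h => good_of_contained F F' hc h,
    fun _ _ _ _ F₁ F₂ h₁ h₂ => good_sum F₁ F₂ h₁ h₂,
    fun _ _ F v0 h => good_pendant F v0 h⟩

end Vale.Agent.H9.AKS
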